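import Mathlib

namespace Vale.Agent.Results.P016.ExceptionGap

open Filter Asymptotics

/-- `PrimRoot a p`: `p` is a prime not dividing `a` and `a` is a primitive root modulo `p`,
i.e. the multiplicative order of `a` modulo `p` equals `p - 1`. -/
def PrimRoot (a : ℤ) (p : ℕ) : Prop :=
  p.Prime ∧ ¬ (p : ℤ) ∣ a ∧ orderOf ((a : ℤ) : ZMod p) = p - 1

/-- Artin's primitive root conjecture (Q1): every integer `a ≠ -1` that is not a perfect square
is a primitive root modulo infinitely many primes. -/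
def ArtinConjecture : Prop :=
  ∀ a : ℤ, a ≠ -1 → ¬ IsSquare a → {p : ℕ | PrimRoot a p}.Infinite

/-- An exception to Artin's conjecture: an integer `a ≠ -1`, not a perfect square, that is a
primitive root modulo only finitely many primes. -/
def Exceptional (a : ℤ) : Prop :=
  a ≠ -1 ∧ ¬ IsSquare a ∧ {p : ℕ | PrimRoot a p}.Finite

/-- The number of exceptions `a` with `|a| ≤ x`. -/
noncomputable def excCount (x : ℕ) : ℕ :=
  Set.ncard {a : ℤ | a.natAbs ≤ x ∧ Exceptional a}

lemma not_isSquare_pow_of_odd {a : ℤ} (ha : ¬ IsSquare a) {k : ℕ} (hk : Odd k) :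
    ¬ IsSquare (a ^ k) := by
  rintro ⟨c, hc⟩
  obtain ⟨m, rfl⟩ := hk
  have ha0 : a ≠ 0 := by
    rintro rfl
    exact ha ⟨0, by simp⟩
  have hd : (a ^ m) ^ 2 ∣ c ^ 2 := by
    refine ⟨a, ?_⟩
    rw [sq c, ← hc]
    ring
  have hd' : a ^ m ∣ c := (Int.pow_dvd_pow_iff (by norm_num)).1 hd
  obtain ⟨e, rfl⟩ := hd'
  apply ha
  refine ⟨e, ?_⟩
  have h1 : a ^ m ≠ 0 := pow_ne_zero _ ha0
  have h2 : (a ^ m) ^ 2 * a = (a ^ m) ^ 2 * (e * e) := by
    have : a ^ (2 * m + 1) = (a ^ m) ^ 2 * a := by ring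
    rw [← this, hc]
    ring
  exact mul_left_cancel₀ (pow_ne_zero 2 h1) h2

lemma pow_ne_neg_one {a : ℤ} (ha : a ≠ -1) {k : ℕ} (hk : Odd k) : a ^ k ≠ -1 := by
  intro h
  apply ha
  have : a ^ k = (-1) ^ k := by rw [h, hk.neg_one_pow]
  exact hk.strictMono_pow.injective this

/-- If `a ^ k` (`k ≠ 0`) is a primitive root modulo `p`, then so is `a`. -/
lemma primRoot_of_pow {a : ℤ} {k p : ℕ} (hk0 : k ≠ 0) (h : PrimRoot (a ^ k) p) :
    PrimRoot a p := by
  obtain ⟨hp, hpa, hord⟩ := h
  have : Fact p.Prime := ⟨hp⟩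
  have hp1 : 0 < p - 1 := by
    have := hp.two_le
    omega
  set x : ZMod p := ((a : ℤ) : ZMod p) with hx
  have hcast : (((a ^ k : ℤ)) : ZMod p) = x ^ k := by
    simp [hx]
  rw [hcast] at hord
  have hx0 : x ≠ 0 := by
    intro h0
    rw [h0, zero_pow hk0, orderOf_zero] at hord
    omega
  have hdvd : orderOf x ∣ p - 1 := ZMod.orderOf_dvd_card_sub_one hx0
  have hpow : orderOf (x ^ k) = orderOf x / Nat.gcd (orderOf x) k := orderOf_pow' x hk0
  have hle : orderOf x ≤ p - 1 := Nat.le_of_dvd hp1 hdvd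
  have hle2 : orderOf x / Nat.gcd (orderOf x) k ≤ orderOf x := Nat.div_le_self _ _
  have hox : orderOf x = p - 1 := by
    rw [hpow] at hord
    omega
  have hpa' : ¬ (p : ℤ) ∣ a := by
    intro hd
    apply hx0
    rw [hx]
    exact (ZMod.intCast_zmod_eq_zero_iff_dvd a p).2 hd
  exact ⟨hp, hpa', hox⟩

lemma two_le_natAbs {a : ℤ} (ha1 : a ≠ -1) (ha2 : ¬ IsSquare a) : 2 ≤ a.natAbs := by
  by_contra hlt
  have h0 : a ≠ 0 := by
    rintro rfl
    exact ha2 ⟨0, by simp⟩
  have h1 : a ≠ 1 := by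
    rintro rfl
    exact ha2 ⟨1, by simp⟩
  omega

/-- Odd powers of exceptions are exceptions. -/
lemma Exceptional.pow {a : ℤ} (ha : Exceptional a) {k : ℕ} (hk : Odd k) :
    Exceptional (a ^ k) := by
  refine ⟨pow_ne_neg_one ha.1 hk, not_isSquare_pow_of_odd ha.2.1 hk, ha.2.2.subset ?_⟩
  intro p hp
  exact primRoot_of_pow hk.pos.ne' hp

lemma finite_set (x : ℕ) : {a : ℤ | a.natAbs ≤ x ∧ Exceptional a}.Finite := by
  apply (Set.finite_Icc (-(x : ℤ)) x).subset
  rintro a ⟨ha, _⟩
  simp only [Set.mem_Icc]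
  omega

/-- One exception `a` forces at least `(log_{|a|} x + 1) / 2` exceptions up to `x`. -/
lemma le_excCount {a : ℤ} (ha : Exceptional a) {x : ℕ} (hx : x ≠ 0) :
    (Nat.log a.natAbs x + 1) / 2 ≤ excCount x := by
  have hb : 2 ≤ a.natAbs := two_le_natAbs ha.1 ha.2.1
  rw [excCount, Set.ncard_eq_toFinset_card _ (finite_set x)]
  rw [← Finset.card_range ((Nat.log a.natAbs x + 1) / 2)]
  apply Finset.card_le_card_of_injOn (fun k => a ^ (2 * k + 1))
  · intro k hk
    have hk' : k < (Nat.log a.natAbs x + 1) / 2 := by simpa using hk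
    simp only [Set.Finite.coe_toFinset, Set.mem_ofPred_eq]
    refine ⟨?_, ha.pow ⟨k, rfl⟩⟩
    rw [Int.natAbs_pow]
    calc a.natAbs ^ (2 * k + 1) ≤ a.natAbs ^ (Nat.log a.natAbs x) :=
          Nat.pow_le_pow_right (by omega) (by omega)
      _ ≤ x := Nat.pow_log_le_self _ hx
  · intro k _ l _ hkl
    have h1 : a.natAbs ^ (2 * k + 1) = a.natAbs ^ (2 * l + 1) := by
      have := congrArg Int.natAbs hkl
      simpa [Int.natAbs_pow] using this
    have := Nat.pow_right_injective hb h1
    omega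

/-- Quantitative form: one exception `a` forces at least `log x / (4 log |a|)` exceptions of
absolute value at most `x`, for every `x ≥ |a|`. -/
lemma log_le_excCount {a : ℤ} (ha : Exceptional a) {x : ℕ} (hx : a.natAbs ≤ x) :
    Real.log x / (4 * Real.log a.natAbs) ≤ excCount x := by
  have hb : 2 ≤ a.natAbs := two_le_natAbs ha.1 ha.2.1
  have hx0 : x ≠ 0 := by omega
  have h1 := le_excCount ha hx0
  set L := Nat.log a.natAbs x with hL
  have hL1 : 1 ≤ L := by
    rw [hL]
    exact Nat.log_pos (by omega) hx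
  have h2 : L + 1 ≤ 4 * excCount x := by omega
  have hlogb : 0 < Real.log a.natAbs := by
    apply Real.log_pos
    exact_mod_cast (by omega : 1 < a.natAbs)
  have h3 : x < a.natAbs ^ (L + 1) := Nat.lt_pow_succ_log_self (by omega) x
  have h4 : Real.log x ≤ (L + 1 : ℕ) * Real.log a.natAbs := by
    rw [← Real.log_pow]
    apply Real.log_le_log
    · exact_mod_cast Nat.pos_of_ne_zero hx0
    · exact_mod_cast h3.le
  rw [div_le_iff₀ (by positivity)]
  have h5 : ((L + 1 : ℕ) : ℝ) ≤ 4 * (excCount x : ℝ) := by exact_mod_cast h2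
  calc Real.log x ≤ (L + 1 : ℕ) * Real.log a.natAbs := h4
    _ ≤ (4 * (excCount x : ℝ)) * Real.log a.natAbs :=
        mul_le_mul_of_nonneg_right h5 hlogb.le
    _ = (excCount x : ℝ) * (4 * Real.log a.natAbs) := by ring

/-- **A gap for the exceptional set of Artin's conjecture.**
Let `excCount x` be the number of integers `a` with `|a| ≤ x`, `a ≠ -1`, `a` not a perfect square,
which are primitive roots modulo only finitely many primes.

(1) Artin's conjecture Q1 holds if and only if `excCount x = o(log x)` as `x → ∞`.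

(2) Explicitly: every single exception `a` forces `excCount x ≥ log x / (4 log |a|)` for all
`x ≥ |a|`. -/
theorem result :
    (ArtinConjecture ↔
      (fun x : ℕ => (excCount x : ℝ)) =o[atTop] (fun x : ℕ => Real.log x)) ∧
    (∀ a : ℤ, Exceptional a → ∀ x : ℕ, a.natAbs ≤ x →
      Real.log x / (4 * Real.log a.natAbs) ≤ excCount x) := by
  refine ⟨⟨?_, ?_⟩, fun a ha x hx => log_le_excCount ha hx⟩
  · intro h
    have h0 : ∀ x : ℕ, (excCount x : ℝ) = 0 := by
      intro x
      have : {a : ℤ | a.natAbs ≤ x ∧ Exceptional a} = ∅ := by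
        ext a
        simp only [Set.mem_ofPred_eq, Set.mem_empty_iff_false, iff_false, not_and]
        intro _ hE
        exact h a hE.1 hE.2.1 hE.2.2
      simp [excCount, this]
    simp only [h0]
    exact isLittleO_zero _ _
  · intro h a ha1 ha2 hfin
    have ha : Exceptional a := ⟨ha1, ha2, hfin⟩
    have hb : 2 ≤ a.natAbs := two_le_natAbs ha1 ha2
    have hlogb : 0 < Real.log a.natAbs := by
      apply Real.log_pos
      exact_mod_cast (by omega : 1 < a.natAbs)
    have hc : 0 < 1 / (8 * Real.log a.natAbs) := by positivity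
    have h1 := (isLittleO_iff.1 h) hc
    obtain ⟨x, hx1, hx2⟩ := (h1.and (eventually_ge_atTop a.natAbs)).exists
    have h2 := log_le_excCount ha hx2
    have hlogx : 0 < Real.log x := by
      apply Real.log_pos
      exact_mod_cast (by omega : 1 < x)
    rw [Real.norm_of_nonneg (Nat.cast_nonneg _), Real.norm_of_nonneg hlogx.le] at hx1
    have h3 : Real.log x / (4 * Real.log a.natAbs) ≤ 1 / (8 * Real.log a.natAbs) * Real.log x :=
      h2.trans hx1
    have h4 : 1 / (8 * Real.log a.natAbs) * Real.log x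
        < Real.log x / (4 * Real.log a.natAbs) := by
      rw [div_mul_eq_mul_div, one_mul]
      apply div_lt_div_of_pos_left hlogx (by positivity)
      nlinarith
    exact absurd h3 (not_le.2 h4)

end Vale.Agent.Results.P016.ExceptionGap
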