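import Mathlib

namespace Vale.Agent.Results.P016.OnePrimeSuffices

open Filter

/-- `PrimRoot a p`: `p` is a prime not dividing `a` and `a` is a primitive root modulo `p`,
i.e. the multiplicative order of `a` modulo `p` equals `p - 1`. -/
def PrimRoot (a : ℤ) (p : ℕ) : Prop :=
  p.Prime ∧ ¬ (p : ℤ) ∣ a ∧ orderOf ((a : ℤ) : ZMod p) = p - 1

/-- Artin's primitive root conjecture (Q1): every integer `a ≠ -1` that is not a perfect square
is a primitive root modulo infinitely many primes. -/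
def ArtinConjecture : Prop :=
  ∀ a : ℤ, a ≠ -1 → ¬ IsSquare a → {p : ℕ | PrimRoot a p}.Infinite

lemma not_isSquare_pow_of_odd {a : ℤ} (ha : ¬ IsSquare a) {k : ℕ} (hk : Odd k) :
    ¬ IsSquare (a ^ k) := by
  rintro ⟨c, hc⟩
  obtain ⟨m, rfl⟩ := hk
  have ha0 : a ≠ 0 := by
    rintro rfl
    exact ha ⟨0, by simp⟩
  have hd : (a ^ m) ^ 2 ∣ c ^ 2 := by
    refine ⟨a, ?_⟩
    rw [sq c, ← hc]
    ring
  have hd' : a ^ m ∣ c := (Int.pow_dvd_pow_iff (by norm_num)).1 hd
  obtain ⟨e, rfl⟩ := hd'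
  apply ha
  refine ⟨e, ?_⟩
  have h1 : a ^ m ≠ 0 := pow_ne_zero _ ha0
  have h2 : (a ^ m) ^ 2 * a = (a ^ m) ^ 2 * (e * e) := by
    have : a ^ (2 * m + 1) = (a ^ m) ^ 2 * a := by ring
    rw [← this, hc]
    ring
  exact mul_left_cancel₀ (pow_ne_zero 2 h1) h2

lemma pow_ne_neg_one {a : ℤ} (ha : a ≠ -1) {k : ℕ} (hk : Odd k) : a ^ k ≠ -1 := by
  intro h
  apply ha
  have : a ^ k = (-1) ^ k := by rw [h, hk.neg_one_pow]
  exact hk.strictMono_pow.injective this

/-- If `a ^ k` (`k ≠ 0`) is a primitive root modulo `p`, then so is `a`, and `k` is coprime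
to `p - 1`. -/
lemma primRoot_of_pow {a : ℤ} {k p : ℕ} (hk0 : k ≠ 0) (h : PrimRoot (a ^ k) p) :
    PrimRoot a p ∧ Nat.gcd (p - 1) k = 1 := by
  obtain ⟨hp, hpa, hord⟩ := h
  have : Fact p.Prime := ⟨hp⟩
  have hp1 : 0 < p - 1 := by
    have := hp.two_le
    omega
  set x : ZMod p := ((a : ℤ) : ZMod p) with hx
  have hcast : (((a ^ k : ℤ)) : ZMod p) = x ^ k := by
    simp [hx]
  rw [hcast] at hord
  have hx0 : x ≠ 0 := by
    intro h0
    rw [h0, zero_pow hk0, orderOf_zero] at hord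
    omega
  have hdvd : orderOf x ∣ p - 1 := ZMod.orderOf_dvd_card_sub_one hx0
  have hpow : orderOf (x ^ k) = orderOf x / Nat.gcd (orderOf x) k := orderOf_pow' x hk0
  have hle : orderOf x ≤ p - 1 := Nat.le_of_dvd hp1 hdvd
  have hle2 : orderOf x / Nat.gcd (orderOf x) k ≤ orderOf x := Nat.div_le_self _ _
  have hox : orderOf x = p - 1 := by
    rw [hpow] at hord
    omega
  have hgcd : Nat.gcd (p - 1) k = 1 := by
    rw [hpow, hox] at hord
    rcases Nat.div_eq_self.1 hord with h0 | h1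
    · omega
    · exact h1
  have hpa' : ¬ (p : ℤ) ∣ a := by
    intro hd
    apply hx0
    rw [hx]
    exact (ZMod.intCast_zmod_eq_zero_iff_dvd a p).2 hd
  exact ⟨⟨hp, hpa', hox⟩, hgcd⟩

/-- If every odd power of `a` is a primitive root modulo at least one prime `p` with `p - 1` not a
power of two, then `a` is a primitive root modulo infinitely many such primes. -/
lemma infinite_of_odd_powers (a : ℤ)
    (h : ∀ k : ℕ, Odd k → ∃ p, PrimRoot (a ^ k) p ∧ ∀ j : ℕ, p - 1 ≠ 2 ^ j) :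
    {p | PrimRoot a p ∧ ∀ j : ℕ, p - 1 ≠ 2 ^ j}.Infinite := by
  intro hfin
  set S : Finset ℕ := hfin.toFinset with hS
  set k : ℕ := ∏ p ∈ S, ordCompl[2] (p - 1) with hk
  have hmem : ∀ p, p ∈ S ↔ (PrimRoot a p ∧ ∀ j : ℕ, p - 1 ≠ 2 ^ j) := by
    intro p
    simp [hS]
  have hkodd : Odd k := by
    rw [hk]
    apply Finset.prod_induction _ Odd
    · intro x y hx hy
      exact hx.mul hy
    · exact odd_one
    · intro p hp
      have hp' := (hmem p).1 hp
      have hp1 : p - 1 ≠ 0 := by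
        have := hp'.1.1.two_le
        omega
      have := Nat.not_dvd_ordCompl Nat.prime_two hp1
      exact Nat.odd_iff.2 (Nat.two_dvd_ne_zero.1 this)
  obtain ⟨p, hpr, hpj⟩ := h k hkodd
  have hk0 : k ≠ 0 := by
    rintro h0
    simp [h0] at hkodd
  obtain ⟨hpa, hgcd⟩ := primRoot_of_pow hk0 hpr
  have hpS : p ∈ S := (hmem p).2 ⟨hpa, hpj⟩
  have hd1 : ordCompl[2] (p - 1) ∣ k := Finset.dvd_prod_of_mem (fun p => ordCompl[2] (p - 1)) hpS
  have hd2 : ordCompl[2] (p - 1) ∣ p - 1 := Nat.ordCompl_dvd _ _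
  have hone : ordCompl[2] (p - 1) = 1 := by
    have := Nat.dvd_gcd hd2 hd1
    rw [hgcd] at this
    exact Nat.dvd_one.1 this
  apply hpj ((p - 1).factorization 2)
  have := Nat.ordProj_mul_ordCompl_eq_self (p - 1) 2
  rw [hone, mul_one] at this
  exact this.symm

lemma two_le_natAbs {a : ℤ} (ha1 : a ≠ -1) (ha2 : ¬ IsSquare a) : 2 ≤ a.natAbs := by
  by_contra hlt
  have h0 : a ≠ 0 := by
    rintro rfl
    exact ha2 ⟨0, by simp⟩
  have h1 : a ≠ 1 := by
    rintro rfl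
    exact ha2 ⟨1, by simp⟩
  omega

/-- **One prime suffices.**  Call an integer admissible if it is not `-1` and not a perfect square.

(1) For every function `f : ℕ → ℕ` tending to infinity (however slowly), Artin's conjecture Q1 is
equivalent to: every admissible `a` is a primitive root modulo at least one prime `p ≥ f |a|`.

(2) If every admissible `a` is a primitive root modulo at least one prime `p` such that `p - 1` is
not a power of two (no size condition at all), then Artin's conjecture Q1 holds; in fact every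
admissible `a` is then a primitive root modulo infinitely many such primes.

(3) If there are only finitely many primes `p` with `p - 1` a power of two, the implication in (2)
is an equivalence. -/
theorem result :
    (∀ f : ℕ → ℕ, Tendsto f atTop atTop →
      (ArtinConjecture ↔
        ∀ a : ℤ, a ≠ -1 → ¬ IsSquare a → ∃ p : ℕ, f a.natAbs ≤ p ∧ PrimRoot a p)) ∧
    ((∀ a : ℤ, a ≠ -1 → ¬ IsSquare a → ∃ p : ℕ, PrimRoot a p ∧ ∀ j : ℕ, p - 1 ≠ 2 ^ j) →
      ArtinConjecture ∧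
        ∀ a : ℤ, a ≠ -1 → ¬ IsSquare a →
          {p : ℕ | PrimRoot a p ∧ ∀ j : ℕ, p - 1 ≠ 2 ^ j}.Infinite) ∧
    ({p : ℕ | p.Prime ∧ ∃ j : ℕ, p - 1 = 2 ^ j}.Finite →
      (ArtinConjecture ↔
        ∀ a : ℤ, a ≠ -1 → ¬ IsSquare a → ∃ p : ℕ, PrimRoot a p ∧ ∀ j : ℕ, p - 1 ≠ 2 ^ j)) := by
  have key : (∀ a : ℤ, a ≠ -1 → ¬ IsSquare a →
        ∃ p : ℕ, PrimRoot a p ∧ ∀ j : ℕ, p - 1 ≠ 2 ^ j) →
      (∀ a : ℤ, a ≠ -1 → ¬ IsSquare a →
        {p : ℕ | PrimRoot a p ∧ ∀ j : ℕ, p - 1 ≠ 2 ^ j}.Infinite) := by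
    intro h a ha1 ha2
    apply infinite_of_odd_powers
    intro k hk
    exact h (a ^ k) (pow_ne_neg_one ha1 hk) (not_isSquare_pow_of_odd ha2 hk)
  have key2 : (∀ a : ℤ, a ≠ -1 → ¬ IsSquare a →
        ∃ p : ℕ, PrimRoot a p ∧ ∀ j : ℕ, p - 1 ≠ 2 ^ j) → ArtinConjecture := by
    intro h a ha1 ha2
    refine (key h a ha1 ha2).mono ?_
    rintro p ⟨h1, _⟩
    exact h1
  refine ⟨?_, fun h => ⟨key2 h, key h⟩, ?_⟩
  · intro f hf
    constructor
    · intro h a ha1 ha2
      obtain ⟨p, hp, hlt⟩ := (h a ha1 ha2).exists_gt (f a.natAbs)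
      exact ⟨p, hlt.le, hp⟩
    · intro h a ha1 ha2
      apply Set.infinite_of_forall_exists_gt
      intro B
      obtain ⟨n0, hn0⟩ := (tendsto_atTop.1 hf (B + 1)).exists_forall_of_atTop
      have hk : Odd (2 * n0 + 1) := ⟨n0, rfl⟩
      obtain ⟨p, hfp, hp⟩ := h (a ^ (2 * n0 + 1)) (pow_ne_neg_one ha1 hk)
        (not_isSquare_pow_of_odd ha2 hk)
      have hbig : n0 ≤ (a ^ (2 * n0 + 1)).natAbs := by
        rw [Int.natAbs_pow]
        calc n0 ≤ 2 * n0 + 1 := by omega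
          _ ≤ 2 ^ (2 * n0 + 1) := Nat.lt_two_pow_self.le
          _ ≤ a.natAbs ^ (2 * n0 + 1) := Nat.pow_le_pow_left (two_le_natAbs ha1 ha2) _
      have h1 := hn0 _ hbig
      refine ⟨p, (primRoot_of_pow (by omega) hp).1, ?_⟩
      omega
  · intro hF
    refine ⟨?_, key2⟩
    intro h a ha1 ha2
    have hinf := (h a ha1 ha2).sdiff hF
    obtain ⟨p, hp, hnot⟩ := hinf.nonempty
    refine ⟨p, hp, ?_⟩
    intro j hj
    exact hnot ⟨hp.1, j, hj⟩

end Vale.Agent.Results.P016.OnePrimeSuffices
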