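import Vale.Agent.Results.P016.ExceptionGap
import Vale.Agent.Results.P016.OnePrimeSuffices

namespace Vale.Agent.Results.P016.SelfImprovement

open Filter Asymptotics

/-- `PrimRoot a p`: `p` is a prime not dividing `a` and `a` is a primitive root modulo `p`,
i.e. the multiplicative order of `a` modulo `p` equals `p - 1`. -/
def PrimRoot (a : ℤ) (p : ℕ) : Prop :=
  p.Prime ∧ ¬ (p : ℤ) ∣ a ∧ orderOf ((a : ℤ) : ZMod p) = p - 1

/-- Artin's primitive root conjecture (Q1): every integer `a ≠ -1` that is not a perfect square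
is a primitive root modulo infinitely many primes. -/
def ArtinConjecture : Prop :=
  ∀ a : ℤ, a ≠ -1 → ¬ IsSquare a → {p : ℕ | PrimRoot a p}.Infinite

/-- An exception to Artin's conjecture: an integer `a ≠ -1`, not a perfect square, that is a
primitive root modulo only finitely many primes. -/
def Exceptional (a : ℤ) : Prop :=
  a ≠ -1 ∧ ¬ IsSquare a ∧ {p : ℕ | PrimRoot a p}.Finite

/-- The number of exceptions `a` with `|a| ≤ x`. -/
noncomputable def excCount (x : ℕ) : ℕ :=
  Set.ncard {a : ℤ | a.natAbs ≤ x ∧ Exceptional a}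

/-- Self-improvement of Artin's conjecture, all forms in one statement:
(1) Q1 is equivalent to `E(x) = o(log x)` for the counting function of exceptions;
(2) one exception `a` forces `E(x) ≥ log x / (4 log |a|)`;
(3) for every `f → ∞`, Q1 is equivalent to: every admissible `a` has one prime `p ≥ f(|a|)`;
(4) one prime `p` with `p - 1` not a power of two for every admissible `a` implies Q1;
(5) if there are finitely many Fermat primes, (4) is an equivalence. -/
theorem result :
    (ArtinConjecture ↔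
      (fun x : ℕ => (excCount x : ℝ)) =o[atTop] (fun x : ℕ => Real.log x)) ∧
    (∀ a : ℤ, Exceptional a → ∀ x : ℕ, a.natAbs ≤ x →
      Real.log x / (4 * Real.log a.natAbs) ≤ excCount x) ∧
    (∀ f : ℕ → ℕ, Tendsto f atTop atTop →
      (ArtinConjecture ↔
        ∀ a : ℤ, a ≠ -1 → ¬ IsSquare a → ∃ p : ℕ, f a.natAbs ≤ p ∧ PrimRoot a p)) ∧
    ((∀ a : ℤ, a ≠ -1 → ¬ IsSquare a → ∃ p : ℕ, PrimRoot a p ∧ ∀ j : ℕ, p - 1 ≠ 2 ^ j) →
      ArtinConjecture ∧
        ∀ a : ℤ, a ≠ -1 → ¬ IsSquare a →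
          {p : ℕ | PrimRoot a p ∧ ∀ j : ℕ, p - 1 ≠ 2 ^ j}.Infinite) ∧
    ({p : ℕ | p.Prime ∧ ∃ j : ℕ, p - 1 = 2 ^ j}.Finite →
      (ArtinConjecture ↔
        ∀ a : ℤ, a ≠ -1 → ¬ IsSquare a → ∃ p : ℕ, PrimRoot a p ∧ ∀ j : ℕ, p - 1 ≠ 2 ^ j)) :=
  ⟨ExceptionGap.result.1, ExceptionGap.result.2, OnePrimeSuffices.result.1,
    OnePrimeSuffices.result.2.1, OnePrimeSuffices.result.2.2⟩

end Vale.Agent.Results.P016.SelfImprovement
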